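import Vale.Agent.P181.TL.H540.Ui
import Vale.Agent.P181.TL.H248.T4

set_option autoImplicit false

/-!
# P181, TL+: the bordered polynomial

One head column `inr ()`; every column of the tail is bordered by one cell of the head.
-/

open MvPolynomial

namespace Vale.Agent.P181.TL.H540

open Vale.Agent.P181.T4 (HW rowOp rowOp_apply rowOp_leibniz rowOp_C rowOp_var)
open Vale.Agent.P181.TL.H248 (yy HH HH_apply HH_col HH_mem_HW mo sp sp_zero sp_inl sp_inr rowOp_X0
  hd)

variable {k : ℕ} {ι : Type}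

/-- The head variable of row zero. -/
noncomputable def V0 (k : ℕ) (ι : Type) : MvPolynomial (Fin (k + 2) × (ι ⊕ Unit)) ℂ :=
  X (0, Sum.inr ())

/-- The substitution. -/
noncomputable def yb (k : ℕ) (ι : Type) : Fin (k + 1) × ι → MvPolynomial (Fin (k + 2) × (ι ⊕ Unit)) ℂ :=
  yy (k := k + 1) (fun _ : ι => ())

/-- The boxes of the tail below its first row. -/
def NN (tau : Fin (k + 1) → ℕ) : ℕ := ∑ i : Fin k, tau i.succ

lemma V0_ne (k : ℕ) (ι : Type) : V0 k ι ≠ 0 := X_ne_zero _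

/-- `V0 ^ NN` divides the substituted highest weight polynomial. -/
theorem dvd_yb [Fintype ι] {tau : Fin (k + 1) → ℕ} {F : MvPolynomial (Fin (k + 1) × ι) ℂ}
    (hF : F ∈ HW (k + 1) ι tau) : V0 k ι ^ NN tau ∣ aeval (yb k ι) F := by
  obtain ⟨V1, hV1⟩ : ∃ V : MvPolynomial (Fin (k + 2) × (ι ⊕ Unit)) ℂ,
    V = X ((0 : Fin (k + 1)).succ, Sum.inr ()) := ⟨_, rfl⟩
  let z' : Fin (k + 1) × ι → MvPolynomial (Fin (k + 2) × (ι ⊕ Unit)) ℂ := fun q =>
    if q.1 = 0 then yb k ι q else V1 * X (q.1.succ, Sum.inl q.2) -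
      X (q.1.succ, Sum.inr ()) * X ((0 : Fin (k + 1)).succ, Sum.inl q.2)
  let e1 : Fin (k + 1) → MvPolynomial (Fin (k + 2) × (ι ⊕ Unit)) ℂ := fun i =>
    if i = 0 then 1 else V1
  let e0 : Fin (k + 1) → MvPolynomial (Fin (k + 2) × (ι ⊕ Unit)) ℂ := fun i =>
    if i = 0 then 1 else V0 k ι
  let c : Fin (k + 1) → MvPolynomial (Fin (k + 2) × (ι ⊕ Unit)) ℂ := fun i =>
    if i = 0 then 0 else X (i.succ, Sum.inr ())
  have hpe : ∀ V : MvPolynomial (Fin (k + 2) × (ι ⊕ Unit)) ℂ,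
      ∏ i : Fin (k + 1), (if i = 0 then (1 : MvPolynomial _ ℂ) else V) ^ tau i = V ^ NN tau := by
    intro V
    rw [Fin.prod_univ_succ, if_pos rfl, one_pow, one_mul, NN, ← Finset.prod_pow_eq_pow_sum]
    refine Finset.prod_congr rfl fun i _ => ?_
    rw [if_neg (Fin.succ_ne_zero i)]
  have H1 : aeval (fun q : Fin (k + 1) × ι => e1 q.1 * yb k ι q) F =
      V1 ^ NN tau * aeval (yb k ι) F := by
    rw [scale hF.1, hpe]
  have H2 : (fun q : Fin (k + 1) × ι => e1 q.1 * yb k ι q) =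
      fun q => (e0 q.1 * z' q) + c q.1 * (e0 (0, q.2).1 * z' (0, q.2)) := by
    funext q
    by_cases h : q.1 = 0
    · simp only [e1, e0, c, z', if_pos h, zero_mul, add_zero]
    · have hy : ∀ q : Fin (k + 1) × ι, yb k ι q = V0 k ι * X (q.1.succ, Sum.inl q.2) -
          X (q.1.succ, Sum.inr ()) * X (0, Sum.inl q.2) := fun q => rfl
      simp only [e1, e0, c, z', if_neg h, if_true, hy, hV1]
      ring
  have H3 : aeval (fun q : Fin (k + 1) × ι => (e0 q.1 * z' q) +
      c q.1 * (e0 (0, q.2).1 * z' (0, q.2))) F = V0 k ι ^ NN tau * aeval z' F := by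
    have h1 := ui hF (fun q => e0 q.1 * z' q) c (if_pos rfl)
    rw [h1, scale hF.1, hpe]
  have H4 : V0 k ι ^ NN tau ∣ V1 ^ NN tau * aeval (yb k ι) F := by
    rw [← H1, H2, H3]
    exact dvd_mul_right _ _
  have hp : Prime (V0 k ι) := X_prime
  refine hp.pow_dvd_of_dvd_mul_left _ ?_ H4
  intro h5
  have h6 := hp.dvd_of_dvd_pow h5
  rw [V0, hV1, X_dvd_X] at h6
  have h7 := congrArg Prod.fst h6
  exact Fin.succ_ne_zero (0 : Fin (k + 1)) h7.symm

/-- Multiplication by the power of the head. -/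
noncomputable def mu0 (k : ℕ) (ι : Type) (N : ℕ) :
    MvPolynomial (Fin (k + 2) × (ι ⊕ Unit)) ℂ →ₗ[ℂ] MvPolynomial (Fin (k + 2) × (ι ⊕ Unit)) ℂ :=
  LinearMap.mulLeft ℂ (V0 k ι ^ N)

lemma mu0_inj (k : ℕ) (ι : Type) (N : ℕ) : Function.Injective (mu0 k ι N) := by
  intro f g h
  exact mul_left_cancel₀ (pow_ne_zero _ (V0_ne k ι)) h

/-- The bordered polynomial. -/
noncomputable def Bt [Fintype ι] (tau : Fin (k + 1) → ℕ) :
    HW (k + 1) ι tau →ₗ[ℂ] MvPolynomial (Fin (k + 2) × (ι ⊕ Unit)) ℂ :=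
  (LinearEquiv.ofInjective (mu0 k ι (NN tau)) (mu0_inj k ι _)).symm.toLinearMap ∘ₗ
    LinearMap.codRestrict (LinearMap.range (mu0 k ι (NN tau)))
      ((aeval (yb k ι)).toLinearMap ∘ₗ (HW (k + 1) ι tau).subtype) (by
        intro F
        obtain ⟨g, hg⟩ := dvd_yb F.2
        exact ⟨g, hg.symm⟩)

lemma Bt_spec [Fintype ι] {tau : Fin (k + 1) → ℕ} (F : HW (k + 1) ι tau) :
    V0 k ι ^ NN tau * Bt tau F = aeval (yb k ι) F.1 := by
  have h := LinearEquiv.ofInjective_apply (mu0 k ι (NN tau)) (h := mu0_inj k ι _) (Bt tau F)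
  rw [Bt, LinearMap.comp_apply, LinearEquiv.coe_coe, LinearEquiv.apply_symm_apply] at h
  exact h.symm

/-- The row operators kill it. -/
lemma rowOp_Bt [Fintype ι] {tau : Fin (k + 1) → ℕ} (F : HW (k + 1) ι tau)
    (hy : ∀ s i : Fin (k + 2), s < i → rowOp s i (aeval (yb k ι) F.1) = 0) {s i : Fin (k + 2)}
    (hsi : s < i) : rowOp s i (Bt tau F) = 0 := by
  obtain ⟨i, rfl⟩ := Fin.exists_succ_eq.2 (Fin.pos_iff_ne_zero.1 ((Fin.zero_le s).trans_lt hsi))
  have h1 : ∀ n : ℕ, rowOp s i.succ (V0 k ι ^ n) = 0 := by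
    intro n
    induction n with
    | zero =>
      rw [pow_zero, ← C_1]
      exact rowOp_C _ _ _
    | succ n ih => rw [pow_succ, rowOp_leibniz, ih, V0, rowOp_X0, zero_mul, mul_zero, add_zero]
  have h2 := hy s i.succ hsi
  rw [← Bt_spec, rowOp_leibniz, h1, zero_mul, zero_add] at h2
  exact (mul_eq_zero.1 h2).resolve_left (pow_ne_zero _ (V0_ne k ι))

/-- The specialization. -/
lemma sp_Bt [Fintype ι] {tau : Fin (k + 1) → ℕ} (F : HW (k + 1) ι tau) :
    sp (k + 1) ι Unit (Bt tau F) = F.1 := by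
  have h1 := congrArg (sp (k + 1) ι Unit) (Bt_spec F)
  rw [map_mul, map_pow, V0, sp_zero, one_pow, one_mul] at h1
  rw [h1]
  have h2 : (sp (k + 1) ι Unit).comp (aeval (yb k ι)) = AlgHom.id ℂ _ := by
    apply MvPolynomial.algHom_ext
    intro q
    rw [AlgHom.comp_apply, aeval_X, AlgHom.id_apply]
    have hy : yb k ι q = X (0, Sum.inr ()) * X (q.1.succ, Sum.inl q.2) -
          X (q.1.succ, Sum.inr ()) * X (0, Sum.inl q.2) := rfl
    rw [hy, map_sub, map_mul, map_mul, sp_zero, sp_zero, sp_inl, sp_inr, one_mul, zero_mul,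
      sub_zero]
  exact DFunLike.congr_fun h2 F.1

/-- The degrees of the monomials. -/
lemma Bt_coeff [Fintype ι] {tau : Fin (k + 1) → ℕ} (F : HW (k + 1) ι tau)
    (v : Fin (k + 2) × (ι ⊕ Unit) →₀ ℕ) :
    coeff (Finsupp.single (0, Sum.inr ()) (NN tau) + v) (aeval (yb k ι) F.1) =
      coeff v (Bt tau F) := by
  rw [← Bt_spec, V0, X_pow_eq_monomial, coeff_monomial_mul, one_mul]

variable [Fintype ι]

/-- The bordered polynomial has the right degrees. -/
theorem Bt_mem {c : ι → ℕ} {tau : Fin (k + 1) → ℕ} (hc : ∑ j, c j = ∑ i, tau i)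
    (F : MvPolynomial (Fin (k + 1) × ι) ℂ) (hF : F ∈ KK (k + 1) ι c tau) :
    Bt tau ⟨F, hF.1⟩ ∈ KK (k + 2) (ι ⊕ Unit) (Sum.elim c fun _ => tau 0) (Fin.cons (tau 0) tau) := by
  classical
  -- the lift of T4 with one head
  have e0 : HH (k + 1) c (fun _ : Unit => ∑ j, c j) (fun _ => ()) c F = aeval (yb k ι) F := by
    rw [HH_apply]
    have h1 : mo (k + 1) c (fun _ : Unit => ∑ j, c j) (fun _ : ι => ()) c = 1 := by
      rw [mo]
      refine Finset.prod_eq_one fun x _ => ?_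
      rcases x with j | u
      · rw [Sum.elim_inl, Nat.sub_self, pow_zero]
      · rw [Sum.elim_inr]
        have h2 : hd (fun _ : ι => ()) c u = ∑ j, c j := by
          rw [hd]
          refine Finset.sum_congr ?_ fun _ _ => rfl
          ext j
          simp
        rw [h2, Nat.sub_self, pow_zero]
    rw [h1, one_mul]
    rfl
  have hhd : ∀ u : Unit, hd (fun _ : ι => ()) c u ≤ ∑ j, c j := by
    intro u
    rw [hd]
    exact Finset.sum_le_sum_of_subset (Finset.subset_univ _)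
  have hHW := HH_mem_HW (L := ∑ j, c j) (s := c) (p := fun _ : Unit => ∑ j, c j) (l := fun _ => ())
    (fun j => le_rfl) hhd (by simp [hc]) hF
  have hcol := HH_col (s := c) (p := fun _ : Unit => ∑ j, c j) (l := fun _ => ())
    (fun j => le_rfl) hhd hF
  rw [e0] at hHW hcol
  have hcol' : ∀ v : Fin (k + 2) × (ι ⊕ Unit) →₀ ℕ, coeff v (aeval (yb k ι) F) ≠ 0 → ∀ x,
    ∑ i : Fin (k + 2), v (i, x) = Sum.elim c (fun _ => ∑ j, c j) x := hcol
  have hN : ∑ j, c j = tau 0 + NN tau := by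
    rw [hc, Fin.sum_univ_succ, NN]
  refine ⟨⟨fun v hv i => ?_, fun s i hsi => rowOp_Bt ⟨F, hF.1⟩ hHW.2 hsi⟩, fun v hv x => ?_⟩
  · rw [← Bt_coeff] at hv
    have h1 := hHW.1 _ hv i
    simp only [Finsupp.add_apply, Finset.sum_add_distrib] at h1
    revert h1
    refine Fin.cases ?_ (fun i => ?_) i
    · rw [Fin.cons_zero, Fin.cons_zero]
      have h2 : ∑ x : ι ⊕ Unit, (Finsupp.single ((0 : Fin (k + 2)), (Sum.inr () : ι ⊕ Unit)) (NN tau))
          (0, x) = NN tau := by
        rw [Finset.sum_eq_single (Sum.inr ())]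
        · rw [Finsupp.single_eq_same]
        · intro y _ hy
          rw [Finsupp.single_eq_of_ne]
          intro h
          exact hy (congrArg Prod.snd h)
        · intro h
          exact absurd (Finset.mem_univ _) h
      rw [h2]
      omega
    · rw [Fin.cons_succ, Fin.cons_succ]
      have h2 : ∑ x : ι ⊕ Unit, (Finsupp.single ((0 : Fin (k + 2)), (Sum.inr () : ι ⊕ Unit)) (NN tau))
          (i.succ, x) = 0 := by
        refine Finset.sum_eq_zero fun x _ => ?_
        rw [Finsupp.single_eq_of_ne]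
        intro h
        exact Fin.succ_ne_zero i (congrArg Prod.fst h)
      rw [h2]
      omega
  · rw [← Bt_coeff] at hv
    have h1 := hcol' _ hv x
    simp only [Finsupp.add_apply, Finset.sum_add_distrib] at h1
    revert h1
    rcases x with j | u
    · rw [Sum.elim_inl, Sum.elim_inl]
      have h2 : ∑ i : Fin (k + 2), (Finsupp.single ((0 : Fin (k + 2)), (Sum.inr () : ι ⊕ Unit)) (NN tau))
          (i, Sum.inl j) = 0 := by
        refine Finset.sum_eq_zero fun i _ => ?_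
        rw [Finsupp.single_eq_of_ne]
        intro h
        exact Sum.inl_ne_inr (congrArg Prod.snd h)
      rw [h2]
      omega
    · rw [Sum.elim_inr, Sum.elim_inr]
      have h2 : ∑ i : Fin (k + 2), (Finsupp.single ((0 : Fin (k + 2)), (Sum.inr () : ι ⊕ Unit)) (NN tau))
          (i, Sum.inr u) = NN tau := by
        rw [Finset.sum_eq_single 0]
        · rw [Finsupp.single_eq_same]
        · intro y _ hy
          rw [Finsupp.single_eq_of_ne]
          intro h
          exact hy (congrArg Prod.fst h)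
        · intro h
          exact absurd (Finset.mem_univ _) h
      rw [h2]
      omega

end Vale.Agent.P181.TL.H540
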