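import Vale.Agent.P181.TL.H353.Ref

set_option autoImplicit false

/-!
# P181, TL+: polarization of columns along a map
-/

open MvPolynomial

namespace Vale.Agent.P181.TL.H540

open Vale.Agent.P181.T4 (HW rowOp rowOp_apply mem_HW)
open Vale.Agent.P181.SZ.R1b (coeff_cmp cmp_rowOp cdeg)
open Vale.Agent.P181.DG6.H887 (lsub lsub_X lsub_mem_HW)
open Vale.Agent.P181.TL.H353 (coeff_prod_ne coeff_pow_ne)
open Vale.Agent.P181.TL

variable {k : ℕ} {α γ : Type} [Fintype α] [Fintype γ]

/-- The matrix of the substitution `X (i, j) ↦ ∑ X (i, r)`, `f r = j`. -/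
def AF [DecidableEq α] (f : γ → α) : α → γ → ℂ := fun i p => if f p = i then 1 else 0

omit [Fintype α] in
lemma lsub_AF [DecidableEq α] (f : γ → α) (p : Fin k × α) :
    lsub k (AF f) (X p) = ∑ r ∈ Finset.univ.filter (fun r => f r = p.2), X (p.1, r) := by
  rw [lsub_X, Finset.sum_filter]
  refine Finset.sum_congr rfl fun r _ => ?_
  by_cases h : f r = p.2
  · rw [if_pos h, AF, if_pos h, C_1, one_mul]
  · rw [if_neg h, AF, if_neg h, C_0, zero_mul]

/-- The columns are separated by new variables. -/
noncomputable def Lf (k : ℕ) (f : γ → α) :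
    MvPolynomial (Fin k × γ) ℂ →ₐ[ℂ] MvPolynomial γ (MvPolynomial (Fin k × α) ℂ) :=
  aeval (fun p => X p.2 * C (X (p.1, f p.2)))

/-- The number of refinements, as a polynomial with natural coefficients. -/
noncomputable def Pf [DecidableEq α] (f : γ → α) (c : α → ℕ) :
    MvPolynomial γ ℕ := ∏ i, (∑ r ∈ Finset.univ.filter (fun r => f r = i), X r) ^ c i

lemma coeff_Pf [DecidableEq α] {f : γ → α} {c : α → ℕ} {u : γ → ℕ}
    (h : ∀ i, ∑ r ∈ Finset.univ.filter (fun r => f r = i), u r = c i) :
    coeff (Finsupp.equivFunOnFinite.symm u) (Pf f c) ≠ 0 := by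
  classical
  have h1 : Pf f c = ∏ p : γ,
      (∑ r ∈ Finset.univ.filter (fun r => f r = f p), (X r : MvPolynomial γ ℕ)) ^ u p := by
    rw [← Finset.prod_fiberwise Finset.univ f, Pf]
    refine Finset.prod_congr rfl fun i _ => ?_
    rw [← h i, ← Finset.prod_pow_eq_pow_sum]
    refine Finset.prod_congr rfl fun p hp => ?_
    rw [(Finset.mem_filter.1 hp).2]
  have h2 : Finsupp.equivFunOnFinite.symm u = ∑ p : γ, u p • Finsupp.single p 1 := by
    ext q
    rw [Finsupp.finsetSum_apply, Finset.sum_eq_single q]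
    · simp
    · intro p _ hp
      simp [hp]
    · intro h
      exact absurd (Finset.mem_univ _) h
  rw [h1, h2]
  apply coeff_prod_ne
  intro p _
  apply coeff_pow_ne
  rw [coeff_sum]
  have h3 := Finset.single_le_sum (s := Finset.univ.filter (fun r => f r = f p))
    (f := fun r' : γ => coeff (Finsupp.single p 1) (X r' : MvPolynomial γ ℕ))
    (fun _ _ => Nat.zero_le _) (Finset.mem_filter.2 ⟨Finset.mem_univ p, rfl⟩)
  have h4 : coeff (Finsupp.single p 1) (X p : MvPolynomial γ ℕ) = 1 := by
    rw [coeff_X, if_pos rfl]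
  have h5 : coeff (Finsupp.single p 1) (X p : MvPolynomial γ ℕ) ≤
    ∑ r' ∈ Finset.univ.filter (fun r => f r = f p),
      coeff (Finsupp.single p 1) (X r' : MvPolynomial γ ℕ) := h3
  rw [h4] at h5
  exact Nat.one_le_iff_ne_zero.1 h5

lemma Lf_lsub [DecidableEq α] (f : γ → α) {c : α → ℕ} {F : MvPolynomial (Fin k × α) ℂ}
    (hF : ∀ v, coeff v F ≠ 0 → ∀ j, ∑ i, v (i, j) = c j) :
    Lf k f (lsub k (AF f) F) =
      map (Nat.castRingHom (MvPolynomial (Fin k × α) ℂ)) (Pf f c) * C F := by
  classical
  have hX : ∀ p : Fin k × α, Lf k f (lsub k (AF f) (X p)) =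
      (∑ r ∈ Finset.univ.filter (fun r => f r = p.2), X r) * C (X p) := by
    intro p
    rw [lsub_AF, map_sum, Finset.sum_mul]
    refine Finset.sum_congr rfl fun r hr => ?_
    rw [Lf, aeval_X]
    simp only [(Finset.mem_filter.1 hr).2]
  have hm : ∀ v ∈ F.support, Lf k f (lsub k (AF f) (monomial v (coeff v F))) =
      map (Nat.castRingHom (MvPolynomial (Fin k × α) ℂ)) (Pf f c) *
        C (monomial v (coeff v F)) := by
    intro v hv
    have hv' := hF v (mem_support_iff.1 hv)
    have h1 : (monomial v (coeff v F) : MvPolynomial (Fin k × α) ℂ) =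
        C (coeff v F) * ∏ p, X p ^ v p := by
      rw [monomial_eq, Finsupp.prod_fintype]
      intro i
      exact pow_zero _
    have h2 : map (Nat.castRingHom (MvPolynomial (Fin k × α) ℂ)) (Pf f c) =
        ∏ p : Fin k × α, (∑ r ∈ Finset.univ.filter (fun r => f r = p.2), X r) ^ v p := by
      rw [Fintype.prod_prod_type_right, Pf, map_prod]
      refine Finset.prod_congr rfl fun i _ => ?_
      rw [map_pow, map_sum]
      simp only [map_X]
      rw [Finset.prod_pow_eq_pow_sum, hv' i]
    have h3 : Lf k f (lsub k (AF f) (C (coeff v F))) = C (C (coeff v F)) := by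
      have h4 : (C (coeff v F) : MvPolynomial (Fin k × α) ℂ) = algebraMap ℂ _ (coeff v F) := rfl
      rw [h4, AlgHom.commutes, AlgHom.commutes]
      rfl
    rw [h1, map_mul, map_mul, h3, map_prod, map_prod, h2, map_mul, map_prod, ← mul_assoc,
      mul_comm _ (C (C (coeff v F))), mul_assoc, ← Finset.prod_mul_distrib]
    congr 1
    refine Finset.prod_congr rfl fun p _ => ?_
    rw [map_pow, map_pow, hX, mul_pow, map_pow]
  conv_lhs => rw [F.as_sum, map_sum, map_sum]
  rw [Finset.sum_congr rfl hm, ← Finset.mul_sum, ← map_sum, ← F.as_sum]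

lemma coeff_Lf (f : γ → α) (u : γ → ℕ) (G : MvPolynomial (Fin k × γ) ℂ) :
    coeff (Finsupp.equivFunOnFinite.symm u) (Lf k f G) =
      rename (fun p : Fin k × γ => (p.1, f p.2)) (SZ.R1b.cmp u G) := by
  classical
  have hcmp : SZ.R1b.cmp u G = ∑ w ∈ G.support, if cdeg w = u then monomial w (coeff w G) else 0 := by
    ext v
    rw [coeff_cmp, coeff_sum]
    by_cases hv : v ∈ G.support
    · rw [Finset.sum_eq_single v]
      · split_ifs with h
        · rw [coeff_monomial, if_pos rfl]
        · rw [coeff_zero]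
      · intro w _ hw
        split_ifs
        · rw [coeff_monomial, if_neg hw]
        · rw [coeff_zero]
      · intro h
        exact absurd hv h
    · rw [Finset.sum_eq_zero]
      · rw [notMem_support_iff.1 hv]
        split_ifs <;> rfl
      · intro w hw
        split_ifs
        · rw [coeff_monomial, if_neg]
          rintro rfl
          exact hv hw
        · rw [coeff_zero]
  rw [hcmp, map_sum]
  conv_lhs => rw [G.as_sum, map_sum, coeff_sum]
  refine Finset.sum_congr rfl fun w _ => ?_
  have h7 : rename (fun p : Fin k × γ => (p.1, f p.2)) (monomial w (coeff w G)) =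
      C (coeff w G) * ∏ p, X (p.1, f p.2) ^ w p := by
    rw [monomial_eq, Finsupp.prod_fintype _ _ (fun i => pow_zero _), map_mul, rename_C, map_prod]
    congr 1
    refine Finset.prod_congr rfl fun p _ => ?_
    rw [map_pow, rename_X]
  have h1 : Lf k f (monomial w (coeff w G)) =
      monomial (Finsupp.equivFunOnFinite.symm (cdeg w))
        (rename (fun p : Fin k × γ => (p.1, f p.2)) (monomial w (coeff w G))) := by
    rw [h7, monomial_eq, Finsupp.prod_fintype _ _ (fun i => pow_zero _), map_mul, map_prod]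
    have h4 : Lf k f (C (coeff w G)) = C (C (coeff w G)) := by
      have h5 : (C (coeff w G) : MvPolynomial (Fin k × γ) ℂ) =
        algebraMap ℂ _ (coeff w G) := rfl
      rw [h5, AlgHom.commutes]
      rfl
    rw [h4, monomial_eq, Finsupp.prod_fintype _ _ (fun i => pow_zero _), map_mul, mul_assoc]
    congr 1
    have h6 : ∀ p : Fin k × γ, Lf k f (X p ^ w p) =
        C (X (p.1, f p.2) ^ w p) * X p.2 ^ w p := by
      intro p
      rw [map_pow, Lf, aeval_X, mul_pow, map_pow, mul_comm]
    rw [Finset.prod_congr rfl fun p _ => h6 p, Finset.prod_mul_distrib, map_prod]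
    congr 1
    rw [Fintype.prod_prod_type_right]
    refine Finset.prod_congr rfl fun j _ => ?_
    simp only
    rw [Finset.prod_pow_eq_pow_sum]
    rfl
  rw [h1, coeff_monomial]
  by_cases h : cdeg w = u
  · rw [if_pos h, if_pos (by rw [h])]
  · rw [if_neg h, if_neg, map_zero]
    intro h'
    exact h (Finsupp.equivFunOnFinite.symm.injective h')

/-- The polarization. -/
noncomputable def pol [DecidableEq α] (k : ℕ) (f : γ → α) (u : γ → ℕ) :
    MvPolynomial (Fin k × α) ℂ →ₗ[ℂ] MvPolynomial (Fin k × γ) ℂ :=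
  (SZ.R1b.cmp u).comp (lsub k (AF f)).toLinearMap

/-- The polarization is a highest weight polynomial. -/
theorem pol_mem [DecidableEq α] (f : γ → α) (u : γ → ℕ) {c : α → ℕ} {mu : Fin k → ℕ}
    {G : MvPolynomial (Fin k × α) ℂ} (hG : G ∈ KK k α c mu) : pol k f u G ∈ KK k γ u mu := by
  classical
  have h0 := lsub_mem_HW (AF f) hG.1
  rw [mem_HW] at h0
  refine ⟨⟨fun v hv i => ?_, fun s i hsi => ?_⟩, fun v hv j => ?_⟩
  · rw [pol, LinearMap.comp_apply, coeff_cmp] at hv
    by_cases h : cdeg v = u
    · rw [if_pos h] at hv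
      exact h0.1 v hv i
    · rw [if_neg h] at hv
      exact absurd rfl hv
  · rw [pol, LinearMap.comp_apply, cmp_rowOp]
    have h1 := h0.2 s i hsi
    rw [AlgHom.toLinearMap_apply, h1, map_zero]
  · rw [pol, LinearMap.comp_apply, coeff_cmp] at hv
    by_cases h : cdeg v = u
    · exact congrFun h j
    · rw [if_neg h] at hv
      exact absurd rfl hv

/-- Back: a nonzero multiple. -/
theorem rename_pol [DecidableEq α] (f : γ → α) (u : γ → ℕ) {c : α → ℕ} {mu : Fin k → ℕ}
    {G : MvPolynomial (Fin k × α) ℂ} (hG : G ∈ KK k α c mu) :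
    rename (fun p : Fin k × γ => (p.1, f p.2)) (pol k f u G) =
      C ((coeff (Finsupp.equivFunOnFinite.symm u) (Pf f c) : ℕ) : ℂ) * G := by
  rw [pol, LinearMap.comp_apply, ← coeff_Lf, AlgHom.toLinearMap_apply, Lf_lsub f hG.2, mul_comm,
    coeff_C_mul, coeff_map, eq_natCast, mul_comm, map_natCast]

end Vale.Agent.P181.TL.H540
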