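import Vale.Agent.P181.TL.DefsP
import Vale.Agent.P181.TL.H540.Bord
import Vale.Agent.P181.TL.H540.Pol

set_option autoImplicit false

/-!
# P181, TL+ (T4+): the lift with heads of total degree `tau 0`
-/

open MvPolynomial

namespace Vale.Agent.P181.TL.H540

open Vale.Agent.P181.T4 (HW finiteDimensional_HW rowOp rowOp_apply rowOp_leibniz rowOp_C rowOp_var)
open Vale.Agent.P181.SZ (PK)
open Vale.Agent.P181.DGx.H248
open Vale.Agent.P181.DU.H248 (sb_equiv tr tr_apply coeff_sb_equiv split_equiv pr_inj)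
open Vale.Agent.P181.TL.H248 (St mem_St sym_mem_PK sp sp_zero sp_inl sp_inr rowOp_X0)

section abs

variable {k : ℕ} {ι η : Type} [Fintype ι] [Fintype η]

open scoped Classical in
/-- The assembly: a family of lifts with nonzero specializations. -/
theorem assemble (k L : ℕ) (s : ι → ℕ) (p : η → ℕ) (tau : Fin k → ℕ) (KS : Finset (ι → ℕ))
    (h1 : ∀ j h, s j < p h)
    (h5 : ∀ c ∈ KS, ∀ c' ∈ KS, ∀ j j', s j = s j' → j ≠ j' → c j ≠ c' j')
    (T : ∀ c : {c // c ∈ KS}, KK k ι c.1 tau →ₗ[ℂ] MvPolynomial (Fin (k + 1) × (ι ⊕ η)) ℂ)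
    (M : {c // c ∈ KS} → ℂ) (hM : ∀ c, M c ≠ 0)
    (hT1 : ∀ c F, T c F ∈ HW (k + 1) (ι ⊕ η) (Fin.cons L tau))
    (hT2 : ∀ c F v, coeff v (T c F) ≠ 0 → ∀ x, ∑ i, v (i, x) = Sum.elim s p x)
    (hT3 : ∀ c F (e : Equiv.Perm (ι ⊕ η)) (τ : ι ≃ ι) (ρ : η ≃ η),
      (∀ x, e.symm x = Sum.map τ ρ x) →
      sp k ι η (sb (k + 1) e (fun _ => 1) (T c F)) =
        C (M c) * rename (fun q : Fin k × ι => (q.1, τ q.2)) F.1) :
    ∑ c ∈ KS, Module.finrank ℂ (KK k ι c tau) ≤
      Module.finrank ℂ (PK (k + 1) (ι ⊕ η) (Sum.elim s p) (Fin.cons L tau)) := by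
  let W := ∀ c : {c // c ∈ KS}, KK k ι c.1 tau
  have hmem : ∀ (c : {c // c ∈ KS}) (F : KK k ι c.1 tau),
      (∑ e ∈ St (Sum.elim s p), (sb (k + 1) e (fun _ => 1)).toLinearMap ∘ₗ T c) F ∈
        PK (k + 1) (ι ⊕ η) (Sum.elim s p) (Fin.cons L tau) := by
    intro c F
    rw [LinearMap.sum_apply]
    exact sym_mem_PK (Sum.elim s p) (Fin.cons L tau) (hT1 c F) (hT2 c F)
  let Λ : W →ₗ[ℂ] PK (k + 1) (ι ⊕ η) (Sum.elim s p) (Fin.cons L tau) := ∑ c : {c // c ∈ KS},
    (LinearMap.codRestrict (PK (k + 1) (ι ⊕ η) (Sum.elim s p) (Fin.cons L tau))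
      (∑ e ∈ St (Sum.elim s p), (sb (k + 1) e (fun _ => 1)).toLinearMap ∘ₗ T c) (hmem c)) ∘ₗ
        LinearMap.proj c
  have hΛ : ∀ x : W, ((Λ x : PK (k + 1) (ι ⊕ η) (Sum.elim s p) (Fin.cons L tau)) :
      MvPolynomial (Fin (k + 1) × (ι ⊕ η)) ℂ) = ∑ c : {c // c ∈ KS},
        ∑ e ∈ St (Sum.elim s p), sb (k + 1) e (fun _ => 1) (T c (x c)) := by
    intro x
    rw [LinearMap.sum_apply, Submodule.coe_sum]
    refine Finset.sum_congr rfl fun c _ => ?_
    have h7 : ((∑ e ∈ St (Sum.elim s p), (sb (k + 1) e (fun _ => 1)).toLinearMap ∘ₗ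
      T c) (x c)) = ∑ e ∈ St (Sum.elim s p), sb (k + 1) e (fun _ => 1) (T c (x c)) := by
      rw [LinearMap.sum_apply]
      rfl
    rw [← h7]
    rfl
  -- the permutations split
  have hsplit : ∀ e ∈ St (Sum.elim s p), ∃ (τ : ι ≃ ι) (ρ : η ≃ η),
      (∀ x, e.symm x = Sum.map τ ρ x) ∧ ∀ j, s (τ j) = s j := by
    intro e he
    have he' : ∀ x, Sum.elim s p (e.symm x) = Sum.elim s p x := fun x => by
      have := mem_St.1 he (e.symm x)
      rw [Equiv.apply_symm_apply] at this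
      exact this.symm
    obtain ⟨τ, ρ, h7⟩ := split_equiv e.symm (fun j => by
      rcases h : e.symm (Sum.inl j) with j' | h'
      · exact ⟨j', rfl⟩
      · exfalso
        have h8 := he' (Sum.inl j)
        rw [h, Sum.elim_inl, Sum.elim_inr] at h8
        have := h1 j h'
        omega) (fun x => by
      rcases h : e.symm (Sum.inr x) with j' | h'
      · exfalso
        have h8 := he' (Sum.inr x)
        rw [h, Sum.elim_inl, Sum.elim_inr] at h8
        have := h1 j' x
        omega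
      · exact ⟨h', rfl⟩)
    refine ⟨τ, ρ, h7, fun j => ?_⟩
    have h8 := he' (Sum.inl j)
    rw [h7] at h8
    exact h8
  have hinj : Function.Injective Λ := by
    rw [← LinearMap.ker_eq_bot, LinearMap.ker_eq_bot']
    intro x hx
    have hx' := hΛ x
    rw [hx, Submodule.coe_zero] at hx'
    funext c0
    apply Subtype.ext
    ext w
    rw [Pi.zero_apply, Submodule.coe_zero, coeff_zero]
    by_contra hw
    have hkey : ∀ (c : {c // c ∈ KS}) (e : Equiv.Perm (ι ⊕ η)), e ∈ St (Sum.elim s p) →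
        coeff w (sp k ι η (sb (k + 1) e (fun _ => 1) (T c (x c)))) ≠ 0 →
        c = c0 ∧ coeff w (sp k ι η (sb (k + 1) e (fun _ => 1) (T c (x c)))) =
          M c0 * coeff w (x c0 : MvPolynomial (Fin k × ι) ℂ) := by
      intro c e he hne
      obtain ⟨τ, ρ, h7, h8⟩ := hsplit e he
      rw [hT3 c _ e τ ρ h7, coeff_C_mul] at hne ⊢
      have h9 : rename (fun q : Fin k × ι => (q.1, τ q.2)) (x c : MvPolynomial (Fin k × ι) ℂ) =
          sb k τ.symm (fun _ => 1) (x c : MvPolynomial (Fin k × ι) ℂ) := by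
        rw [sb_equiv, Equiv.symm_symm]
      have hne' := right_ne_zero_of_mul hne
      rw [h9, coeff_sb_equiv] at hne'
      have h10 := (x c).2.2 _ hne'
      have h11 := (x c0).2.2 w hw
      have h12 : ∀ j, c0.1 (τ j) = c.1 j := by
        intro j
        rw [← h10 j, ← h11 (τ j)]
        refine Finset.sum_congr rfl fun i _ => ?_
        rw [tr_apply, Equiv.symm_symm]
      have h13 : ∀ j, τ j = j := by
        intro j
        by_contra h14
        exact h5 c.1 c.2 c0.1 c0.2 j (τ j) (h8 j).symm (Ne.symm h14) (h12 j).symm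
      have h15 : c = c0 := by
        apply Subtype.ext
        funext j
        rw [← h12 j, h13 j]
      refine ⟨h15, ?_⟩
      subst h15
      have h16 : (fun q : Fin k × ι => (q.1, τ q.2)) = id := by
        funext q
        rw [h13]
        rfl
      rw [h16, rename_id_apply]
    have h7 := congrArg (fun P => coeff w (sp k ι η P)) hx'
    beta_reduce at h7
    rw [map_zero, coeff_zero, map_sum, coeff_sum, Finset.sum_eq_single c0] at h7
    · rw [map_sum, coeff_sum] at h7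
      have h8 : ∀ e ∈ St (Sum.elim s p), coeff w (sp k ι η (sb (k + 1) e (fun _ => 1)
          (T c0 (x c0)))) =
          if coeff w (sp k ι η (sb (k + 1) e (fun _ => 1) (T c0 (x c0)))) = 0 then 0 else
              M c0 * coeff w (x c0 : MvPolynomial (Fin k × ι) ℂ) := by
        intro e he
        split_ifs with h
        · exact h
        · exact (hkey c0 e he h).2
      rw [Finset.sum_congr rfl h8, Finset.sum_ite, Finset.sum_const_zero, zero_add,
        Finset.sum_const, nsmul_eq_mul] at h7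
      refine (mul_ne_zero ?_ (mul_ne_zero (hM c0) hw)) h7.symm
      rw [Nat.cast_ne_zero, ← Nat.pos_iff_ne_zero, Finset.card_pos]
      refine ⟨1, Finset.mem_filter.2 ⟨mem_St.2 fun x => rfl, ?_⟩⟩
      rw [hT3 c0 _ 1 (Equiv.refl _) (Equiv.refl _) (fun x => by
        rcases x with j | h <;> rfl)]
      have h16 : (fun q : Fin k × ι => (q.1, (Equiv.refl ι) q.2)) = id := by
        funext q
        rfl
      rw [h16, rename_id_apply, coeff_C_mul]
      exact mul_ne_zero (hM c0) hw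
    · intro c _ hc
      rw [map_sum, coeff_sum]
      refine Finset.sum_eq_zero fun e he => ?_
      by_contra h
      exact hc (hkey c e he h).1
    · intro h'
      exact absurd (Finset.mem_univ _) h'
  have hfr : Module.finrank ℂ W = ∑ c : {c // c ∈ KS}, Module.finrank ℂ (KK k ι c.1 tau) := by
    rw [Module.finrank_pi_fintype]
  have h8 := LinearMap.finrank_le_finrank_of_injective hinj
  rw [hfr] at h8
  refine le_trans (le_of_eq ?_) h8
  exact (Finset.sum_coe_sort KS (fun c => Module.finrank ℂ (KK k ι c tau))).symm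

end abs

section lift

variable {k : ℕ} {ι η : Type} [Fintype ι] [Fintype η]

/-- The exponents of the monomial. -/
noncomputable def me (k : ℕ) (g : ι ⊕ η → ℕ) : Fin (k + 2) × (ι ⊕ η) →₀ ℕ :=
  Finsupp.equivFunOnFinite.symm fun q => if q.1 = 0 then g q.2 else 0

lemma me_zero (g : ι ⊕ η → ℕ) (x : ι ⊕ η) : me k g (0, x) = g x := by
  show (if (0 : Fin (k + 2)) = 0 then g x else 0) = g x
  exact if_pos rfl

lemma me_succ (g : ι ⊕ η → ℕ) (i : Fin (k + 1)) (x : ι ⊕ η) : me k g (i.succ, x) = 0 := by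
  show (if i.succ = 0 then g x else 0) = 0
  exact if_neg (Fin.succ_ne_zero i)

lemma me_col (g : ι ⊕ η → ℕ) (x : ι ⊕ η) : ∑ i, me k g (i, x) = g x := by
  rw [Fin.sum_univ_succ, me_zero, Finset.sum_eq_zero fun i _ => me_succ g i x, add_zero]

lemma me_row (g : ι ⊕ η → ℕ) (i : Fin (k + 1)) : ∑ x, me k g (i.succ, x) = 0 :=
  Finset.sum_eq_zero fun x _ => me_succ g i x

lemma me_eq (g : ι ⊕ η → ℕ) : (monomial (me k g) (1 : ℂ)) = ∏ x : ι ⊕ η, X (0, x) ^ g x := by
  rw [monomial_eq, C_1, one_mul, Finsupp.prod_fintype _ _ (fun _ => pow_zero _),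
    Fintype.prod_prod_type, Fin.prod_univ_succ]
  have h2 : ∏ i : Fin (k + 1), ∏ x : ι ⊕ η, (X (i.succ, x) : MvPolynomial
      (Fin (k + 2) × (ι ⊕ η)) ℂ) ^ me k g (i.succ, x) = 1 := by
    refine Finset.prod_eq_one fun i _ => Finset.prod_eq_one fun x _ => ?_
    rw [me_succ, pow_zero]
  rw [h2, mul_one]
  refine Finset.prod_congr rfl fun x _ => ?_
  rw [me_zero]

lemma rowOp_me (s : Fin (k + 2)) (i : Fin (k + 1)) (g : ι ⊕ η → ℕ) :
    rowOp s i.succ (monomial (me k g) (1 : ℂ)) = 0 := by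
  classical
  rw [me_eq]
  have hpow : ∀ (x : ι ⊕ η) (n : ℕ),
      rowOp s i.succ (X (0, x) ^ n : MvPolynomial (Fin (k + 2) × (ι ⊕ η)) ℂ) = 0 := by
    intro x n
    induction n with
    | zero =>
      rw [pow_zero, ← C_1]
      exact rowOp_C _ _ _
    | succ n ih => rw [pow_succ, rowOp_leibniz, ih, rowOp_X0, zero_mul, mul_zero, add_zero]
  have key : ∀ t : Finset (ι ⊕ η),
      rowOp s i.succ (∏ x ∈ t, X (0, x) ^ g x : MvPolynomial (Fin (k + 2) × (ι ⊕ η)) ℂ) = 0 := by
    intro t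
    induction t using Finset.induction_on with
    | empty =>
      rw [Finset.prod_empty, ← C_1]
      exact rowOp_C _ _ _
    | insert c t hc ih =>
      rw [Finset.prod_insert hc, rowOp_leibniz, ih, hpow, zero_mul, mul_zero, add_zero]
  exact key _

/-- Multiplication by the monomial: degrees. -/
lemma me_mul {u : ι ⊕ η → ℕ} {nu : Fin (k + 2) → ℕ} {G : MvPolynomial (Fin (k + 2) × (ι ⊕ η)) ℂ}
    (hG : G ∈ KK (k + 2) (ι ⊕ η) u nu) (g : ι ⊕ η → ℕ) (v)
    (hv : coeff v (monomial (me k g) (1 : ℂ) * G) ≠ 0) :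
    (∀ x, ∑ i, v (i, x) = g x + u x) ∧ ∀ i : Fin (k + 1), ∑ x, v (i.succ, x) = nu i.succ := by
  rw [coeff_monomial_mul'] at hv
  by_cases h : me k g ≤ v
  · rw [if_pos h, one_mul] at hv
    have hadd : ∀ q, v q = me k g q + (v - me k g) q := by
      intro q
      have := h q
      rw [Finsupp.tsub_apply]
      omega
    refine ⟨fun x => ?_, fun i => ?_⟩
    · rw [Finset.sum_congr rfl fun i _ => hadd (i, x), Finset.sum_add_distrib, me_col]
      rw [hG.2 _ hv x]
    · rw [Finset.sum_congr rfl fun x _ => hadd (i.succ, x), Finset.sum_add_distrib, me_row,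
        zero_add]
      exact hG.1.1 _ hv i.succ
  · rw [if_neg h] at hv
    exact absurd rfl hv

/-- The map of the columns: all heads to the single head. -/
def fh (ι η : Type) : ι ⊕ η → ι ⊕ Unit := Sum.map id fun _ => ()

open scoped Classical in
/-- The lift. -/
noncomputable def TT (s : ι → ℕ) (p r : η → ℕ) (c : ι → ℕ) (tau : Fin (k + 1) → ℕ) :
    KK (k + 1) ι c tau →ₗ[ℂ] MvPolynomial (Fin (k + 2) × (ι ⊕ η)) ℂ :=
  LinearMap.mulLeft ℂ (monomial (me k (Sum.elim (fun j => s j - c j) (fun h => p h - r h))) 1) ∘ₗ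
    pol (k + 2) (fh ι η) (Sum.elim c r) ∘ₗ Bt tau ∘ₗ
      Submodule.inclusion (fun _ h => h.1 : KK (k + 1) ι c tau ≤ HW (k + 1) ι tau)

open scoped Classical in
lemma TT_apply (s : ι → ℕ) (p r : η → ℕ) (c : ι → ℕ) (tau : Fin (k + 1) → ℕ)
    (F : KK (k + 1) ι c tau) : TT s p r c tau F =
      monomial (me k (Sum.elim (fun j => s j - c j) (fun h => p h - r h))) 1 *
        pol (k + 2) (fh ι η) (Sum.elim c r) (Bt tau ⟨F.1, F.2.1⟩) := rfl

/-- The specialization factors over the single head. -/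
lemma sp_fh (G : MvPolynomial (Fin (k + 2) × (ι ⊕ η)) ℂ) (e : Equiv.Perm (ι ⊕ η)) (τ : ι ≃ ι)
    (ρ : η ≃ η) (he : ∀ x, e.symm x = Sum.map τ ρ x) :
    sp (k + 1) ι η (rename (fun q : Fin (k + 2) × (ι ⊕ η) => (q.1, e.symm q.2)) G) =
      rename (fun q : Fin (k + 1) × ι => (q.1, τ q.2)) (sp (k + 1) ι Unit
        (rename (fun q : Fin (k + 2) × (ι ⊕ η) => (q.1, fh ι η q.2)) G)) := by
  have h2 : (sp (k + 1) ι η).comp (rename (R := ℂ)
      (fun q : Fin (k + 2) × (ι ⊕ η) => (q.1, e.symm q.2))) =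
      (rename (R := ℂ) (fun q : Fin (k + 1) × ι => (q.1, τ q.2))).comp ((sp (k + 1) ι Unit).comp
        (rename (R := ℂ) (fun q : Fin (k + 2) × (ι ⊕ η) => (q.1, fh ι η q.2)))) := by
    apply MvPolynomial.algHom_ext
    rintro ⟨i, x⟩
    rw [AlgHom.comp_apply, AlgHom.comp_apply, AlgHom.comp_apply, rename_X, rename_X]
    simp only [he]
    refine Fin.cases ?_ (fun i => ?_) i
    · rw [sp_zero, sp_zero, map_one]
    · rcases x with j | h
      · have e1 : Sum.map τ ρ (Sum.inl j) = Sum.inl (τ j) := rfl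
        have e2 : fh ι η (Sum.inl j) = Sum.inl j := rfl
        rw [e1, e2, sp_inl, sp_inl, rename_X]
      · have e1 : Sum.map τ ρ (Sum.inr h) = Sum.inr (ρ h) := rfl
        have e2 : fh ι η (Sum.inr h) = Sum.inr () := rfl
        rw [e1, e2, sp_inr, sp_inr, map_zero]
  exact DFunLike.congr_fun h2 G

end lift

open scoped Classical in
/-- **(T4+)** the lift. -/
theorem liftC : LiftC := by
  intro k L ι η _ _ s p r tau KS h1 h2 h3 h4 h4' h5 h6
  let u : (ι → ℕ) → ι ⊕ η → ℕ := fun c => Sum.elim c r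
  have hBt : ∀ c ∈ KS, ∀ F : KK (k + 1) ι c tau, Bt tau ⟨F.1, F.2.1⟩ ∈
      KK (k + 2) (ι ⊕ Unit) (Sum.elim c fun _ => tau 0) (Fin.cons (tau 0) tau) :=
    fun c hc F => Bt_mem (h4' c hc) F.1 F.2
  have hpol : ∀ c ∈ KS, ∀ F : KK (k + 1) ι c tau,
      pol (k + 2) (fh ι η) (Sum.elim c r) (Bt tau ⟨F.1, F.2.1⟩) ∈
        KK (k + 2) (ι ⊕ η) (Sum.elim c r) (Fin.cons (tau 0) tau) :=
    fun c hc F => pol_mem _ _ (hBt c hc F)
  have hdeg : ∀ c ∈ KS, ∀ F : KK (k + 1) ι c tau, ∀ v, coeff v (TT s p r c tau F) ≠ 0 →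
      (∀ x, ∑ i, v (i, x) = Sum.elim s p x) ∧
        ∀ i : Fin (k + 1), ∑ x, v (i.succ, x) = tau i := by
    intro c hc F v hv
    rw [TT_apply] at hv
    obtain ⟨g1, g2⟩ := me_mul (hpol c hc F) _ v hv
    refine ⟨fun x => ?_, fun i => by rw [g2 i, Fin.cons_succ]⟩
    rw [g1 x]
    rcases x with j | h
    · simp only [Sum.elim_inl]
      have := h4 c hc j
      omega
    · simp only [Sum.elim_inr]
      have := h2 h
      omega
  refine assemble (k + 1) L s p tau KS h1 h5 (fun c => TT s p r c.1 tau)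
    (fun c => ((coeff (Finsupp.equivFunOnFinite.symm (Sum.elim c.1 r))
      (Pf (fh ι η) (Sum.elim c.1 fun _ => tau 0)) : ℕ) : ℂ)) ?_ ?_ ?_ ?_
  · intro c
    rw [Nat.cast_ne_zero]
    refine coeff_Pf fun x => ?_
    rcases x with j | x
    · rw [Sum.elim_inl, Finset.sum_eq_single (Sum.inl j)]
      · rfl
      · intro y hy hne
        exfalso
        have h7 := (Finset.mem_filter.1 hy).2
        rcases y with j' | h'
        · exact hne (congrArg Sum.inl (Sum.inl.inj h7))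
        · exact Sum.inr_ne_inl h7
      · intro h7
        exact absurd (Finset.mem_filter.2 ⟨Finset.mem_univ (Sum.inl j : ι ⊕ η), rfl⟩ :
          (Sum.inl j : ι ⊕ η) ∈ Finset.univ.filter (fun y => fh ι η y = Sum.inl j)) h7
    · rw [Sum.elim_inr, ← h3]
      have h7 : Finset.univ.filter (fun y : ι ⊕ η => fh ι η y = Sum.inr x) =
          Finset.univ.map ⟨Sum.inr, Sum.inr_injective⟩ := by
        ext y
        rw [Finset.mem_filter, Finset.mem_map]
        rcases y with j' | h'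
        · refine ⟨fun h => absurd h.2 Sum.inl_ne_inr, fun h => ?_⟩
          obtain ⟨a, -, ha⟩ := h
          exact absurd ha Sum.inr_ne_inl
        · exact ⟨fun _ => ⟨h', Finset.mem_univ _, rfl⟩, fun _ => ⟨Finset.mem_univ _, rfl⟩⟩
      rw [h7, Finset.sum_map]
      rfl
  · intro c F
    refine ⟨fun v hv i => ?_, fun s' i hsi => ?_⟩
    · obtain ⟨g1, g2⟩ := hdeg c.1 c.2 F v hv
      have h7 : ∑ i, ∑ x, v (i, x) = L + ∑ i, tau i := by
        rw [Finset.sum_comm, Finset.sum_congr rfl fun x _ => g1 x, Fintype.sum_sum_type, ← h6]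
        rfl
      refine Fin.cases ?_ (fun i => ?_) i
      · have h8 : ∑ i : Fin (k + 1), ∑ x, v (i.succ, x) = ∑ i, tau i :=
          Finset.sum_congr rfl fun i _ => g2 i
        rw [Fin.sum_univ_succ, h8] at h7
        rw [Fin.cons_zero]
        omega
      · rw [Fin.cons_succ]
        exact g2 i
    · obtain ⟨i, rfl⟩ := Fin.exists_succ_eq.2
        (Fin.pos_iff_ne_zero.1 ((Fin.zero_le s').trans_lt hsi))
      rw [TT_apply, rowOp_leibniz, rowOp_me, zero_mul, zero_add,
        (hpol c.1 c.2 F).1.2 s' i.succ hsi, mul_zero]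
  · intro c F v hv x
    exact (hdeg c.1 c.2 F v hv).1 x
  · intro c F e τ ρ he
    rw [sb_equiv, TT_apply, map_mul, map_mul]
    have h7 : sp (k + 1) ι η (rename (fun q : Fin (k + 2) × (ι ⊕ η) => (q.1, e.symm q.2))
        (monomial (me k (Sum.elim (fun j => s j - c.1 j) (fun h => p h - r h))) (1 : ℂ))) = 1 := by
      rw [me_eq, map_prod, map_prod]
      refine Finset.prod_eq_one fun x _ => ?_
      rw [map_pow, map_pow, rename_X, sp_zero, one_pow]
    rw [h7, one_mul, sp_fh _ e τ ρ he, rename_pol _ _ (hBt c.1 c.2 F), map_mul, map_mul, sp_Bt]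
    congr 1
    simp only [map_natCast]

end Vale.Agent.P181.TL.H540
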