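import Vale.Agent.P181.H411.Seam4

set_option autoImplicit false

/-!
# P181, TL+: highest weight polynomials and additions of row one
-/

open MvPolynomial

namespace Vale.Agent.P181.TL.H540

open Vale.Agent.P181.T4 (HW rowOp rowOp_apply rowOp_leibniz rowOp_C rowOp_var)

variable {k : ℕ} {ι τ : Type}

/-- The substitution `x_i ↦ z_i + t c_i z_0`. -/
noncomputable def phi (z : Fin (k + 1) × ι → MvPolynomial τ ℂ) (c : Fin (k + 1) → MvPolynomial τ ℂ) :
    MvPolynomial (Fin (k + 1) × ι) ℂ →ₐ[ℂ] Polynomial (MvPolynomial τ ℂ) :=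
  aeval (fun p => Polynomial.C (z p) + Polynomial.X * Polynomial.C (c p.1 * z (0, p.2)))

lemma phi_X (z : Fin (k + 1) × ι → MvPolynomial τ ℂ) (c : Fin (k + 1) → MvPolynomial τ ℂ)
    (p : Fin (k + 1) × ι) : phi z c (X p) =
      Polynomial.C (z p) + Polynomial.X * Polynomial.C (c p.1 * z (0, p.2)) := by
  rw [phi, aeval_X]

lemma der_phi [Fintype ι] (z : Fin (k + 1) × ι → MvPolynomial τ ℂ)
    (c : Fin (k + 1) → MvPolynomial τ ℂ) (hc : c 0 = 0) (f : MvPolynomial (Fin (k + 1) × ι) ℂ) :
    Polynomial.derivative (phi z c f) =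
      ∑ i, Polynomial.C (c i) * phi z c (rowOp 0 i f) := by
  induction f using MvPolynomial.induction_on with
  | C a =>
    have h1 : phi z c (C a) = Polynomial.C (C a) := by
      rw [phi, aeval_C]
      rfl
    rw [h1, Polynomial.derivative_C]
    refine (Finset.sum_eq_zero fun i _ => ?_).symm
    rw [rowOp_C, map_zero, mul_zero]
  | add f h hf hh =>
    rw [map_add, Polynomial.derivative_add, hf, hh, ← Finset.sum_add_distrib]
    refine Finset.sum_congr rfl fun i _ => ?_
    rw [map_add, map_add, mul_add]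
  | mul_X f p hf =>
    have hX : Polynomial.derivative (phi z c (X p)) = Polynomial.C (c p.1 * z (0, p.2)) := by
      rw [phi_X, Polynomial.derivative_add, Polynomial.derivative_C, zero_add,
        Polynomial.derivative_mul, Polynomial.derivative_X, Polynomial.derivative_C, one_mul,
        mul_zero, add_zero]
    have hX0 : phi z c (X (0, p.2)) = Polynomial.C (z (0, p.2)) := by
      rw [phi_X, hc, zero_mul, Polynomial.C_0, mul_zero, add_zero]
    have h2 : ∀ i, phi z c (rowOp 0 i (f * X p)) =
        phi z c (rowOp 0 i f) * phi z c (X p) +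
          phi z c f * (if p.1 = i then Polynomial.C (z (0, p.2)) else 0) := by
      intro i
      rw [rowOp_leibniz, map_add, map_mul, map_mul, rowOp_var]
      split_ifs
      · rw [hX0]
      · rw [map_zero]
    rw [map_mul, Polynomial.derivative_mul, hf, hX]
    simp only [h2, mul_add, Finset.sum_add_distrib]
    congr 1
    · rw [Finset.sum_mul]
      refine Finset.sum_congr rfl fun i _ => ?_
      ring
    · rw [Finset.sum_eq_single p.1]
      · rw [if_pos rfl, map_mul]
        ring
      · intro i _ hi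
        rw [if_neg (Ne.symm hi), mul_zero, mul_zero]
      · intro h
        exact absurd (Finset.mem_univ _) h

lemma eval_phi (z : Fin (k + 1) × ι → MvPolynomial τ ℂ) (c : Fin (k + 1) → MvPolynomial τ ℂ)
    (t : MvPolynomial τ ℂ) (f : MvPolynomial (Fin (k + 1) × ι) ℂ) :
    Polynomial.eval t (phi z c f) = aeval (fun p => z p + t * (c p.1 * z (0, p.2))) f := by
  have e : ((Polynomial.aeval (R := MvPolynomial τ ℂ)
        (t : MvPolynomial τ ℂ)).restrictScalars ℂ).comp (phi z c) =
      aeval (fun p => z p + t * (c p.1 * z (0, p.2))) := by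
    apply MvPolynomial.algHom_ext
    intro p
    rw [AlgHom.comp_apply, phi_X, aeval_X, AlgHom.restrictScalars_apply,
      Polynomial.coe_aeval_eq_eval, Polynomial.eval_add, Polynomial.eval_C, Polynomial.eval_mul,
      Polynomial.eval_X, Polynomial.eval_C]
  have h2 := DFunLike.congr_fun e f
  rw [AlgHom.comp_apply, AlgHom.restrictScalars_apply, Polynomial.coe_aeval_eq_eval] at h2
  exact h2

/-- Multiples of row one may be added to the other rows. -/
theorem ui [Fintype ι] {tau : Fin (k + 1) → ℕ} {F : MvPolynomial (Fin (k + 1) × ι) ℂ}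
    (hF : F ∈ HW (k + 1) ι tau) (z : Fin (k + 1) × ι → MvPolynomial τ ℂ)
    (c : Fin (k + 1) → MvPolynomial τ ℂ) (hc : c 0 = 0) :
    aeval (fun p => z p + c p.1 * z (0, p.2)) F = aeval z F := by
  have h1 : Polynomial.derivative (phi z c F) = 0 := by
    rw [der_phi z c hc]
    refine Finset.sum_eq_zero fun i _ => ?_
    rcases eq_or_ne i 0 with rfl | hi
    · rw [hc, Polynomial.C_0, zero_mul]
    · rw [hF.2 0 i (Fin.pos_iff_ne_zero.2 hi), map_zero, mul_zero]
  have h2 := Polynomial.eq_C_of_derivative_eq_zero h1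
  have h3 := eval_phi z c 1 F
  have h4 := eval_phi z c 0 F
  rw [h2, Polynomial.eval_C] at h3 h4
  simp only [one_mul] at h3
  simp only [zero_mul, add_zero] at h4
  rw [← h3, h4]

/-- Homogeneity in the rows. -/
theorem scale [Fintype ι] {n : ℕ} {tau : Fin n → ℕ} {F : MvPolynomial (Fin n × ι) ℂ}
    (hF : ∀ v, coeff v F ≠ 0 → ∀ i, ∑ j, v (i, j) = tau i) (z : Fin n × ι → MvPolynomial τ ℂ)
    (e : Fin n → MvPolynomial τ ℂ) :
    aeval (fun p => e p.1 * z p) F = (∏ i, e i ^ tau i) * aeval z F := by
  have hm : ∀ v ∈ F.support, aeval (fun p => e p.1 * z p) (monomial v (coeff v F)) =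
      (∏ i, e i ^ tau i) * aeval z (monomial v (coeff v F)) := by
    intro v hv
    have hv' := hF v (mem_support_iff.1 hv)
    rw [aeval_monomial, aeval_monomial, Finsupp.prod_fintype _ _ (fun _ => pow_zero _),
      Finsupp.prod_fintype _ _ (fun _ => pow_zero _)]
    have h1 : ∏ p : Fin n × ι, (e p.1 * z p) ^ v p =
        (∏ i, e i ^ tau i) * ∏ p : Fin n × ι, z p ^ v p := by
      rw [Finset.prod_congr rfl fun p _ => mul_pow (e p.1) (z p) (v p), Finset.prod_mul_distrib]
      congr 1
      rw [Fintype.prod_prod_type]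
      refine Finset.prod_congr rfl fun i _ => ?_
      simp only
      rw [Finset.prod_pow_eq_pow_sum, hv' i]
    rw [h1]
    ring
  conv_lhs => rw [F.as_sum, map_sum]
  rw [Finset.sum_congr rfl hm, ← Finset.mul_sum, ← map_sum, ← F.as_sum]

end Vale.Agent.P181.TL.H540
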